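import Crest.Agent.R57.Defs

set_option autoImplicit false
open scoped Classical
open Finset

namespace Crest.Agent.R57

universe u

section
variable {V : Type u} [Fintype V] {R : V → V → Prop}

theorem abs_sub_nb (hr : ∀ a, R a a) (P : Finset V) : P ⊆ nb R P := fun a ha =>
  mem_nb.2 ⟨a, ha, hr a⟩

theorem abs_sv_le (hr : ∀ a, R a a) (h : SV R) (P : Finset V) :
    (nb R (nb R P)).card + P.card ≤ 2 * (nb R P).card := by
  by_cases hP : nb R P ⊆ P
  · have e : nb R P = P := Subset.antisymm hP (abs_sub_nb hr P)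
    rw [e, e]; omega
  · exact (h P hP).le

theorem abs_intr_compl (S : Finset V) : (intr R S)ᶜ = nb R Sᶜ := by
  ext y
  simp only [mem_compl, mem_intr, mem_nb, not_forall]
  constructor
  · rintro ⟨a, h1, h2⟩; exact ⟨a, h2, h1⟩
  · rintro ⟨a, h1, h2⟩; exact ⟨a, h2, h1⟩

theorem abs_intr_ge (hr : ∀ a, R a a) (h : SV R) (S : Finset V) :
    2 * (intr R S).card ≤ (intr R (intr R S)).card + S.card := by
  have h1 := abs_sv_le hr h Sᶜ
  rw [← abs_intr_compl, ← abs_intr_compl, card_compl, card_compl, card_compl] at h1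
  have := card_le_univ S
  have := card_le_univ (intr R S)
  have := card_le_univ (intr R (intr R S))
  omega

theorem abs_lam_ge (hr : ∀ a, R a a) (h : SV R) (Y : Finset (V × V)) :
    2 * (lam R Y).card ≤ (lam R (lam R Y)).card + Y.card := by
  rw [card_col (lam R Y), card_col (lam R (lam R Y)), card_col Y, mul_sum, ← sum_add_distrib]
  refine sum_le_sum fun b _ => ?_
  simp only [col_lam]
  exact abs_intr_ge hr h _

theorem abs_rho_lt (hr : ∀ a, R a a) (h : SV R) (X : Finset (V × V)) (a : V)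
    (ha : ¬ nb R (row X a) ⊆ row X a) :
    (rho R (rho R X)).card + X.card < 2 * (rho R X).card := by
  rw [card_row (rho R X), card_row (rho R (rho R X)), card_row X, mul_sum, ← sum_add_distrib]
  refine sum_lt_sum (fun b _ => ?_) ⟨a, mem_univ _, ?_⟩
  · rw [row_rho, row_rho]; exact abs_sv_le hr h _
  · rw [row_rho, row_rho]; exact h _ ha

theorem abs_rho_mono {S T : Finset (V × V)} (h : S ⊆ T) : rho R S ⊆ rho R T := by
  intro p hp
  obtain ⟨b, h1, h2⟩ := mem_rho.1 hp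
  exact mem_rho.2 ⟨b, h1, h h2⟩

theorem abs_lam_mono {S T : Finset (V × V)} (h : S ⊆ T) : lam R S ⊆ lam R T := by
  intro p hp
  exact mem_lam.2 fun a ha => h (mem_lam.1 hp a ha)

theorem abs_comm (T : Finset (V × V)) : rho R (lam R T) ⊆ lam R (rho R T) := by
  intro p hp
  obtain ⟨b, h1, h2⟩ := mem_rho.1 hp
  exact mem_lam.2 fun a ha => mem_rho.2 ⟨b, h1, mem_lam.1 h2 a ha⟩

theorem abs_rho_union (S T : Finset (V × V)) : rho R (T ∪ S) = rho R T ∪ (rho R S \ rho R T) := by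
  rw [union_sdiff_self_eq_union]
  ext p
  simp only [mem_rho, mem_union]
  constructor
  · rintro ⟨b, h1, h2 | h2⟩
    · exact Or.inl ⟨b, h1, h2⟩
    · exact Or.inr ⟨b, h1, h2⟩
  · rintro (⟨b, h1, h2⟩ | ⟨b, h1, h2⟩)
    · exact ⟨b, h1, Or.inl h2⟩
    · exact ⟨b, h1, Or.inr h2⟩

end

theorem abs_proof (hS : StarStmt.{u}) : AbsStmt.{u} := by
  intro V _ R σ hr hSV hhom hdis a₀
  let Lo : Finset (V × V) := univ.filter (fun p => R p.1 p.2)
  let Hi : Finset (V × V) := univ.filter (fun p => ¬ R (σ p.2) p.1)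
  have mLo : ∀ p, p ∈ Lo ↔ R p.1 p.2 := by intro p; simp [Lo]
  have mHi : ∀ p, p ∈ Hi ↔ ¬ R (σ p.2) p.1 := by intro p; simp [Hi]
  let F : Finset (Finset (V × V) × Finset (V × V)) :=
    univ.filter (fun q => Lo ⊆ q.1 ∧ q.1 ⊆ q.2 ∧ q.2 ⊆ Hi)
  have mF : ∀ q, q ∈ F ↔ Lo ⊆ q.1 ∧ q.1 ⊆ q.2 ∧ q.2 ⊆ Hi := by intro q; simp [F]
  let v : Finset (V × V) × Finset (V × V) → ℤ := fun q =>
    ((rho R q.1).card : ℤ) - q.1.card + q.2.card - (lam R q.2).card
  have hne : F.Nonempty := ⟨(Lo, Lo), (mF _).2 ⟨Subset.rfl, Subset.rfl, fun p hp =>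
    (mHi p).2 (hdis _ _ ((mLo p).1 hp))⟩⟩
  obtain ⟨⟨T₀, T₁⟩, hq, hmin⟩ := exists_min_image F v hne
  obtain ⟨h0, h01, h1⟩ := (mF _).1 hq
  simp only at h0 h01 h1
  have hA : ∀ S ⊆ T₁ \ T₀, S.card ≤ (rho R S \ rho R T₀).card := by
    intro S hS
    have hm := hmin (T₀ ∪ S, T₁) ((mF _).2 ⟨h0.trans subset_union_left,
      union_subset h01 (hS.trans sdiff_subset), h1⟩)
    have hd : Disjoint T₀ S := disjoint_left.2 fun p hp hp' => (mem_sdiff.1 (hS hp')).2 hp
    simp only [v] at hm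
    rw [abs_rho_union, card_union_of_disjoint disjoint_sdiff, card_union_of_disjoint hd] at hm
    push_cast at hm
    omega
  have hB : ∀ S ⊆ T₁ \ T₀, S.card ≤ (lam R T₁ \ lam R (T₁ \ S)).card := by
    intro S hS
    have hm := hmin (T₀, T₁ \ S) ((mF _).2 ⟨h0, fun p hp => mem_sdiff.2 ⟨h01 hp,
      fun hp' => (mem_sdiff.1 (hS hp')).2 hp⟩, sdiff_subset.trans h1⟩)
    simp only [v] at hm
    have e1 := card_sdiff_add_card_eq_card (hS.trans sdiff_subset : S ⊆ T₁)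
    have e2 := card_sdiff_add_card_eq_card
      (abs_lam_mono (R := R) (sdiff_subset : T₁ \ S ⊆ T₁))
    omega
  have hstar := hS V R T₀ T₁ h01 hA hB
  have e1 := card_sdiff_add_card_eq_card h01
  have e2 := card_sdiff_add_card_eq_card (abs_lam_mono (R := R) h01)
  have e3 := card_sdiff_add_card_eq_card (abs_rho_mono (R := R) h01)
  have e4 := card_sdiff_add_card_eq_card
    (abs_lam_mono (R := R) (abs_rho_mono (R := R) h01))
  have e5 := card_le_card (abs_comm (R := R) T₀)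
  have hdiag : ∀ a, (a, a) ∈ lam R T₀ := fun a => mem_lam.2 fun c hc => h0 ((mLo _).2 hc)
  have hnew := hmin (rho R (lam R T₀), lam R (rho R T₁)) ((mF _).2 ⟨fun p hp =>
    mem_rho.2 ⟨p.1, (mLo p).1 hp, hdiag _⟩,
    (abs_comm T₀).trans (abs_lam_mono (abs_rho_mono h01)), fun p hp => (mHi p).2 fun hR => by
      obtain ⟨b, hb1, hb2⟩ := mem_rho.1 (mem_lam.1 hp _ hR)
      exact (mHi _).1 (h1 hb2) (hhom _ _ hb1)⟩)
  simp only [v] at hnew
  have e6 := abs_lam_ge hr hSV (rho R T₁)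
  refine ⟨row (lam R T₀) a₀, mem_row.2 (hdiag _), ?_, fun b hb => ?_⟩
  · by_contra hc
    have e7 := abs_rho_lt hr hSV (lam R T₀) a₀ hc
    omega
  · exact (mHi _).1 (h1 (h01 (mem_lam.1 (mem_row.1 hb) _ (hr _))))

end Crest.Agent.R57
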