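import Crest.Agent.R57.Defs

/-! Row 57, BALEX: balanced allocations exist. -/

set_option autoImplicit false
open scoped Classical
open Finset

namespace Crest.Agent.R57

universe u

theorem balEx : BalEx.{u} := by
  intro V _ R S₀ S₁
  let K : Set (V → V → ℝ) := {π | (∀ y a, 0 ≤ π y a) ∧
    (∀ y a, ¬ (y ∈ intr R S₁ ∧ y ∉ intr R S₀ ∧ a ∉ S₀ ∧ R a y) → π y a = 0) ∧
    ∀ y, y ∈ intr R S₁ → y ∉ intr R S₀ → ∑ a, π y a = 1}
  have hcl : IsClosed K := by
    simp only [K, Set.setOf_and, Set.setOf_forall]
    refine IsClosed.inter (isClosed_iInter fun y => isClosed_iInter fun a =>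
      isClosed_le continuous_const (by fun_prop)) (IsClosed.inter
      (isClosed_iInter fun y => isClosed_iInter fun a => isClosed_iInter fun _ =>
        isClosed_eq (by fun_prop) continuous_const)
      (isClosed_iInter fun y => isClosed_iInter fun _ => isClosed_iInter fun _ =>
        isClosed_eq (by fun_prop) continuous_const))
  have hsub : K ⊆ Set.Icc 0 1 := by
    rintro π ⟨h0, h1, h2⟩
    refine ⟨fun y a => h0 y a, fun y a => ?_⟩
    show π y a ≤ 1
    by_cases h : y ∈ intr R S₁ ∧ y ∉ intr R S₀ ∧ a ∉ S₀ ∧ R a y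
    · rw [← h2 y h.1 h.2.1]
      exact single_le_sum (f := π y) (fun b _ => h0 y b) (mem_univ a)
    · rw [h1 y a h]; exact zero_le_one
  have hK : IsCompact K := isCompact_Icc.of_isClosed_subset hcl hsub
  have hne : K.Nonempty := by
    have : ∀ y, y ∉ intr R S₀ → ∃ a, a ∉ S₀ ∧ R a y := by
      intro y hy
      rw [mem_intr] at hy
      push Not at hy
      obtain ⟨a, h1, h2⟩ := hy
      exact ⟨a, h2, h1⟩
    choose! c hc using this
    refine ⟨fun y a => if y ∈ intr R S₁ ∧ y ∉ intr R S₀ ∧ a = c y then 1 else 0,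
      fun y a => by dsimp only; split_ifs <;> norm_num, fun y a h => ?_, fun y h1 h2 => ?_⟩
    · refine if_neg ?_
      rintro ⟨h1, h2, rfl⟩
      exact h ⟨h1, h2, hc y h2⟩
    · simp only [h1, h2, not_false_eq_true, true_and]
      simp
  have hcont : Continuous (fun π : V → V → ℝ => ∑ a, (load π a) ^ 2) := by
    unfold load; fun_prop
  obtain ⟨π, ⟨h0, h1, h2⟩, hmin⟩ := hK.exists_isMinOn hne hcont.continuousOn
  refine ⟨π, h0, fun y a h => ?_, h2, fun y a a' hya ha' hR => ?_⟩
  · by_contra hc
    exact h (h1 y a (fun h' => hc ⟨h'.1, h'.2.2⟩))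
  · by_contra hlt
    push Not at hlt
    have hy : y ∈ intr R S₁ ∧ y ∉ intr R S₀ ∧ a ∉ S₀ ∧ R a y := by
      by_contra hc; exact hya (h1 y a hc)
    have hpos : 0 < π y a := lt_of_le_of_ne (h0 y a) (Ne.symm hya)
    have haa : a ≠ a' := by rintro rfl; exact lt_irrefl _ hlt
    set ε := min (π y a) ((load π a - load π a') / 2) with hε
    have hε0 : 0 < ε := lt_min hpos (by linarith)
    have hε1 : ε ≤ π y a := min_le_left _ _
    have hε2 : ε ≤ (load π a - load π a') / 2 := min_le_right _ _
    let d : V → ℝ := fun b => (if b = a' then ε else 0) - (if b = a then ε else 0)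
    let π' : V → V → ℝ := fun z b => π z b + if z = y then d b else 0
    have hmem : π' ∈ K := by
      refine ⟨fun z b => ?_, fun z b h => ?_, fun z hz1 hz2 => ?_⟩
      · have := h0 z b
        simp only [π', d]
        split_ifs with e1 e2 e3 e3 <;> subst_vars <;> linarith
      · simp only [π', d]
        rw [h1 z b h]
        split_ifs with e1 e2 e3 e3
        · simp
        · exact absurd (by rw [e1, e2]; exact ⟨hy.1, hy.2.1, ha', hR⟩) h
        · exact absurd (by rw [e1, e3]; exact hy) h
        · simp
        · simp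
      · simp only [π', d]
        rw [sum_add_distrib, h2 z hz1 hz2]
        split_ifs
        · simp [sum_sub_distrib]
        · simp
    have hload : ∀ b, load π' b = load π b + d b := by
      intro b
      simp [load, π', sum_add_distrib]
    have hle : ∑ b, (load π b) ^ 2 ≤ ∑ b, (load π' b) ^ 2 := hmin hmem
    have hdiff : ∑ b, (load π' b) ^ 2 = ∑ b, (load π b) ^ 2 +
        (2 * ε * (load π a' - load π a) + 2 * ε ^ 2) := by
      have : ∀ b, (load π' b) ^ 2 = (load π b) ^ 2 +
          ((if b = a' then 2 * ε * load π a' + ε ^ 2 else 0) +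
            (if b = a then -(2 * ε * load π a) + ε ^ 2 else 0)) := by
        intro b
        rw [hload]
        simp only [d]
        split_ifs with e1 e2 e2
        · exact absurd (e2.symm.trans e1) haa
        · subst e1; ring
        · subst e2; ring
        · ring
      simp only [this, sum_add_distrib, sum_ite_eq', mem_univ, if_true]
      ring
    nlinarith

end Crest.Agent.R57
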