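import Crest.Agent.R57.Defs

/-! Row 57, task BLOW: the reflexive blow-up has strictly concave growth. -/

set_option autoImplicit false
open scoped Classical
open Finset

namespace Crest.Agent.R57

universe u

namespace Blow

variable {V : Type u} [Fintype V]

theorem card_layers (P T : Finset (V × Bool)) (S Q Z : Finset V)
    (hQ : ∀ v, v ∈ Q ↔ (v, true) ∈ P ∨ (v, false) ∈ P)
    (hZ : ∀ v, v ∈ Z ↔ (v, true) ∈ P ∧ (v, false) ∈ P)
    (hT : ∀ p, p ∈ T ↔ p.1 ∈ S ∧ p ∉ P) :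
    T.card = (S \ Q).card + (S \ Z).card := by
  have e1 : T.card = ∑ p : V × Bool, if p ∈ T then 1 else 0 := by
    rw [← Finset.card_filter]; congr 1; ext p; simp
  have e2 : ∀ X : Finset V, X.card = ∑ v : V, if v ∈ X then 1 else 0 := by
    intro X; rw [← Finset.card_filter]; congr 1; ext p; simp
  rw [e1, e2, e2, ← Finset.sum_add_distrib, Fintype.sum_prod_type]
  refine Finset.sum_congr rfl (fun v _ => ?_)
  rw [Fintype.sum_bool]
  simp only [hT, Finset.mem_sdiff, hQ, hZ]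
  by_cases h1 : v ∈ S <;> by_cases h2 : (v, true) ∈ P <;> by_cases h3 : (v, false) ∈ P <;>
    simp [h1, h2, h3]

theorem layer (A : V → V → Prop) (_h : PruneIneq A) (Z Q : Finset V) (hZ : Z ⊆ Q) :
    ((nb A (nb A Q) \ nb A Q) \ Z).card ≤ (nb A (nb A Q \ Z) \ (Z ∪ nb A Q)).card := by
  refine Finset.card_le_card (fun x hx => ?_)
  simp only [Finset.mem_sdiff, Finset.mem_union, not_or] at hx ⊢
  obtain ⟨⟨h1, h2⟩, h3⟩ := hx
  obtain ⟨a, ha, hax⟩ := mem_nb.1 h1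
  refine ⟨mem_nb.2 ⟨a, Finset.mem_sdiff.2 ⟨ha, fun haZ => h2 (mem_nb.2 ⟨a, hZ haZ, hax⟩)⟩, hax⟩,
    h3, h2⟩

theorem layer_le (A : V → V → Prop) (h : PruneIneq A) (Z Q : Finset V) (hZ : Z ⊆ Q) :
    ((nb A (nb A Q) \ nb A Q) \ Z).card ≤ (nb A Q \ Z).card := by
  refine (layer A h Z Q hZ).trans ?_
  rcases (nb A Q \ Z).eq_empty_or_nonempty with h0 | h0
  · have : nb A (nb A Q \ Z) = ∅ := by
      rw [h0]; ext x; simp
    rw [this]; simp
  · exact (h Z Q hZ h0).le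

end Blow

theorem blow_proof : BlowStmt.{u} := by
  intro V _ A h P hP
  set Q : Finset V := univ.filter (fun v => (v, true) ∈ P ∨ (v, false) ∈ P) with hQd
  set Z : Finset V := univ.filter (fun v => (v, true) ∈ P ∧ (v, false) ∈ P) with hZd
  have hQ : ∀ v, v ∈ Q ↔ (v, true) ∈ P ∨ (v, false) ∈ P := by intro v; simp [hQd]
  have hZ : ∀ v, v ∈ Z ↔ (v, true) ∈ P ∧ (v, false) ∈ P := by intro v; simp [hZd]
  have hZQ : Z ⊆ Q := fun v hv => (hQ v).2 (Or.inl ((hZ v).1 hv).1)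
  have hPQ : ∀ p ∈ P, p.1 ∈ Q := by
    rintro ⟨v, i⟩ hp
    rw [hQ]
    cases i
    · exact Or.inr hp
    · exact Or.inl hp
  have h1 : ∀ p, p ∈ nb (blow A) P ↔ p ∈ P ∨ p.1 ∈ nb A Q := by
    intro p
    simp only [mem_nb, blow]
    constructor
    · rintro ⟨q, hq, rfl | hA⟩
      · exact Or.inl hq
      · exact Or.inr ⟨q.1, hPQ q hq, hA⟩
    · rintro (hp | ⟨a, ha, hA⟩)
      · exact ⟨p, hp, Or.inl rfl⟩
      · rcases (hQ a).1 ha with h' | h'
        · exact ⟨_, h', Or.inr hA⟩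
        · exact ⟨_, h', Or.inr hA⟩
  have h2 : ∀ p, p ∈ nb (blow A) (nb (blow A) P) ↔
      p ∈ P ∨ p.1 ∈ nb A Q ∨ p.1 ∈ nb A (nb A Q) := by
    intro p
    rw [mem_nb]
    constructor
    · rintro ⟨q, hq, rfl | hA⟩
      · rcases (h1 q).1 hq with h' | h'
        · exact Or.inl h'
        · exact Or.inr (Or.inl h')
      · rcases (h1 q).1 hq with h' | h'
        · exact Or.inr (Or.inl (mem_nb.2 ⟨q.1, hPQ q h', hA⟩))
        · exact Or.inr (Or.inr (mem_nb.2 ⟨q.1, h', hA⟩))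
    · rintro (hp | hp | hp)
      · exact ⟨p, (h1 p).2 (Or.inl hp), Or.inl rfl⟩
      · exact ⟨p, (h1 p).2 (Or.inr hp), Or.inl rfl⟩
      · obtain ⟨a, ha, hA⟩ := mem_nb.1 hp
        exact ⟨(a, true), (h1 _).2 (Or.inr ha), Or.inr hA⟩
  have s1 : P ⊆ nb (blow A) P := fun p hp => (h1 p).2 (Or.inl hp)
  have s2 : nb (blow A) P ⊆ nb (blow A) (nb (blow A) P) := fun p hp =>
    mem_nb.2 ⟨p, hp, Or.inl rfl⟩
  have c1 := Blow.card_layers P (nb (blow A) P \ P) (nb A Q) Q Z hQ hZ (by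
    intro p; rw [Finset.mem_sdiff, h1]; tauto)
  have c2 := Blow.card_layers P (nb (blow A) (nb (blow A) P) \ nb (blow A) P)
    (nb A (nb A Q) \ nb A Q) Q Z hQ hZ (by
      intro p; rw [Finset.mem_sdiff, Finset.mem_sdiff, h1, h2]; tauto)
  have d1 := Finset.card_sdiff_add_card_eq_card s1
  have d2 := Finset.card_sdiff_add_card_eq_card s2
  have hne : (nb A Q \ Z).Nonempty := by
    obtain ⟨p, hp, hp'⟩ := Finset.not_subset.1 hP
    refine ⟨p.1, Finset.mem_sdiff.2 ⟨((h1 p).1 hp).resolve_left hp', fun hz => hp' ?_⟩⟩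
    obtain ⟨v, i⟩ := p
    cases i
    · exact ((hZ v).1 hz).2
    · exact ((hZ v).1 hz).1
  have l1 := Blow.layer_le A h Q Q subset_rfl
  have l2 := (Blow.layer A h Z Q hZQ).trans_lt (h Z Q hZQ hne)
  omega

end Crest.Agent.R57
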