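import Mathlib

/-!
# Row 57 (S0079): Seymour's second neighbourhood conjecture

Every file of this row should start with `open scoped Classical` and `open Finset` (as here) and
use the `mem_*` simp lemmas below instead of unfolding.

Outline.
* `Prune`: in an arc-minimal counterexample `A`, for `Z ⊆ Q` and `B = QA \ Z ≠ ∅` we have
  `|BA \ (Z ∪ QA)| < |B|`.
* `Blow`: hence the reflexive blow-up `blow A` on `V × Bool` has strictly concave growth `SV`.
* `Abs`: a reflexive `R` with `SV R` and a homomorphism `σ` with `R a b → ¬ R (σ b) a` has, for each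
  `a`, a closed set containing `a` and avoiding `{b | R (σ b) a}`.  Proof: minimise
  `|ρ T₀| - |T₀| + |T₁| - |λ T₁|` over `Lo ⊆ T₀ ⊆ T₁ ⊆ Hi` in `V × V` and compare with the pair
  `(ρ λ T₀, λ ρ T₁)`; the key inequality is `Star`, proved with balanced loads (`BalEx`, `Load`).
* Main: so the counterexample is acyclic, hence has a sink, which is a Seymour vertex.
-/

set_option autoImplicit false
open scoped Classical
open Finset

namespace Crest.Agent.R57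

universe u

section defs
variable {V : Type u} [Fintype V]

/-- out-neighbourhood of a set -/
noncomputable def nb (R : V → V → Prop) (S : Finset V) : Finset V :=
  univ.filter (fun y => ∃ a ∈ S, R a y)

/-- vertices all of whose in-neighbours lie in `S` -/
noncomputable def intr (R : V → V → Prop) (S : Finset V) : Finset V :=
  univ.filter (fun y => ∀ a, R a y → a ∈ S)

/-- `nb` applied in the second coordinate (row by row) -/
noncomputable def rho (R : V → V → Prop) (T : Finset (V × V)) : Finset (V × V) :=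
  univ.filter (fun p => ∃ b, R b p.2 ∧ (p.1, b) ∈ T)

/-- `intr` applied in the first coordinate (column by column) -/
noncomputable def lam (R : V → V → Prop) (T : Finset (V × V)) : Finset (V × V) :=
  univ.filter (fun p => ∀ a, R a p.1 → (a, p.2) ∈ T)

/-- row `a` of a set of pairs -/
noncomputable def row (T : Finset (V × V)) (a : V) : Finset V := univ.filter (fun b => (a, b) ∈ T)

/-- column `b` of a set of pairs -/
noncomputable def col (T : Finset (V × V)) (b : V) : Finset V := univ.filter (fun a => (a, b) ∈ T)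

/-- first out-neighbourhood -/
noncomputable def N1 (A : V → V → Prop) (v : V) : Finset V := univ.filter (fun u => A v u)

/-- second out-neighbourhood -/
noncomputable def N2 (A : V → V → Prop) (v : V) : Finset V :=
  univ.filter (fun w => w ≠ v ∧ ¬ A v w ∧ ∃ u, A v u ∧ A u w)

@[simp] theorem mem_nb {R : V → V → Prop} {S : Finset V} {y : V} :
    y ∈ nb R S ↔ ∃ a ∈ S, R a y := by simp [nb]
@[simp] theorem mem_intr {R : V → V → Prop} {S : Finset V} {y : V} :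
    y ∈ intr R S ↔ ∀ a, R a y → a ∈ S := by simp [intr]
@[simp] theorem mem_rho {R : V → V → Prop} {T : Finset (V × V)} {p : V × V} :
    p ∈ rho R T ↔ ∃ b, R b p.2 ∧ (p.1, b) ∈ T := by simp [rho]
@[simp] theorem mem_lam {R : V → V → Prop} {T : Finset (V × V)} {p : V × V} :
    p ∈ lam R T ↔ ∀ a, R a p.1 → (a, p.2) ∈ T := by simp [lam]
@[simp] theorem mem_row {T : Finset (V × V)} {a b : V} : b ∈ row T a ↔ (a, b) ∈ T := by
  simp [row]
@[simp] theorem mem_col {T : Finset (V × V)} {a b : V} : a ∈ col T b ↔ (a, b) ∈ T := by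
  simp [col]
@[simp] theorem mem_N1 {A : V → V → Prop} {v u : V} : u ∈ N1 A v ↔ A v u := by simp [N1]
@[simp] theorem mem_N2 {A : V → V → Prop} {v w : V} :
    w ∈ N2 A v ↔ w ≠ v ∧ ¬ A v w ∧ ∃ u, A v u ∧ A u w := by simp [N2]

theorem sum_row {M : Type*} [AddCommMonoid M] (T : Finset (V × V)) (f : V × V → M) :
    ∑ p ∈ T, f p = ∑ a, ∑ b ∈ row T a, f (a, b) := by
  rw [← Finset.sum_finset_product T univ (row T) (by simp)]

theorem sum_col {M : Type*} [AddCommMonoid M] (T : Finset (V × V)) (f : V × V → M) :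
    ∑ p ∈ T, f p = ∑ b, ∑ a ∈ col T b, f (a, b) := by
  rw [← Finset.sum_finset_product_right T univ (col T) (by simp)]

theorem card_row (T : Finset (V × V)) : T.card = ∑ a, (row T a).card := by
  simpa using sum_row T (fun _ => (1 : ℕ))

theorem card_col (T : Finset (V × V)) : T.card = ∑ b, (col T b).card := by
  simpa using sum_col T (fun _ => (1 : ℕ))

theorem row_rho (R : V → V → Prop) (T : Finset (V × V)) (a : V) :
    row (rho R T) a = nb R (row T a) := by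
  ext x; simp only [mem_row, mem_rho, mem_nb]; exact ⟨fun ⟨b, h1, h2⟩ => ⟨b, h2, h1⟩,
    fun ⟨b, h1, h2⟩ => ⟨b, h2, h1⟩⟩

theorem col_lam (R : V → V → Prop) (T : Finset (V × V)) (b : V) :
    col (lam R T) b = intr R (col T b) := by
  ext y; simp

/-- strictly concave growth of neighbourhoods -/
def SV (R : V → V → Prop) : Prop :=
  ∀ P : Finset V, ¬ nb R P ⊆ P → (nb R (nb R P)).card + P.card < 2 * (nb R P).card

/-- the pruning inequality -/
def PruneIneq (A : V → V → Prop) : Prop :=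
  ∀ Z Q : Finset V, Z ⊆ Q → (nb A Q \ Z).Nonempty →
    (nb A (nb A Q \ Z) \ (Z ∪ nb A Q)).card < (nb A Q \ Z).card

/-- total mass that `a` receives -/
noncomputable def load (π : V → V → ℝ) (a : V) : ℝ := ∑ y, π y a

/-- A balanced allocation: every `y ∈ intr S₁ \ intr S₀` spreads a unit mass over its
in-neighbours in `S₁ \ S₀`, and only over those of least load. -/
structure Bal (R : V → V → Prop) (S₀ S₁ : Finset V) (π : V → V → ℝ) : Prop where
  nonneg : ∀ y a, 0 ≤ π y a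
  supp : ∀ y a, π y a ≠ 0 → y ∈ intr R S₁ ∧ a ∉ S₀ ∧ R a y
  tot : ∀ y, y ∈ intr R S₁ → y ∉ intr R S₀ → ∑ a, π y a = 1
  bal : ∀ y a a', π y a ≠ 0 → a' ∉ S₀ → R a' y → load π a ≤ load π a'

end defs

/-- the reflexive blow-up on two copies -/
def blow {V : Type u} (A : V → V → Prop) (p q : V × Bool) : Prop := p = q ∨ A p.1 q.1

/-- Task BALEX.  The set `K` of `π` with `nonneg`, `supp`, `tot` is a nonempty (each
`y ∈ intr S₁ \ intr S₀` has an in-neighbour `a ∉ S₀`; put the unit there) compact subset of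
`V → V → ℝ` (closed, inside `Set.Icc 0 1`; write `supp` as `¬ (..) → π y a = 0`).  Minimise the
continuous `∑ a, (load π a)^2` on `K` (`IsCompact.exists_isMinOn`).  If `π y a ≠ 0`, `a' ∉ S₀`,
`R a' y` and `load π a' < load π a`, move `ε = min (π y a) ((load a - load a')/2) > 0` from
`(y,a)` to `(y,a')`: the sum of squares changes by `-2ε(load a - load a' - ε) < 0`. -/
def BalEx : Prop :=
  ∀ (V : Type u) [Fintype V] (R : V → V → Prop) (S₀ S₁ : Finset V), ∃ π, Bal R S₀ S₁ π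

/-- Task LOAD (from `BalEx`; `r S₀ S₁ = load (π S₀ S₁)` with `π` chosen).
(1) swap the sums (`π y a = 0` unless `y ∈ intr S₁ \ intr S₀` and `a ∈ S₁ \ S₀`).
(2) `S = {a ∈ S₁ \ S₀ | load a < 1}`: every `y ∈ nb S ∩ intr S₁` puts all its mass into `S`
(by `bal`), so `|S| ≤ |nb S ∩ intr S₁| ≤ ∑_{a ∈ S} load a < |S|` if `S ≠ ∅`.
(3) `H = {a ∈ S₁ \ S₀' | load' a < load a}`.  If `π y a ≠ 0` with `a ∈ H` then
`y ∈ intr S₁' \ intr S₀'`, and `π' y a' ≠ 0` gives `a' ∈ S₁ \ S₀'`,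
`load' a' ≤ load' a < load a ≤ load a'`, so `a' ∈ H`.  Hence for every `y`,
`∑_{a ∈ H} π y a ≤ ∑_{a ∈ H} π' y a` (left side `0`, or `≤ 1 =` right side); summing over `y`
contradicts `H ≠ ∅`. -/
def LoadStmt : Prop :=
  ∀ (V : Type u) [Fintype V] (R : V → V → Prop), ∃ r : Finset V → Finset V → V → ℝ,
    (∀ S₀ S₁, ∑ a ∈ S₁ \ S₀, r S₀ S₁ a = ((intr R S₁ \ intr R S₀).card : ℝ)) ∧
    (∀ S₀ S₁, (∀ S ⊆ S₁ \ S₀, S.card ≤ (nb R S ∩ intr R S₁).card) →
      ∀ a ∈ S₁ \ S₀, 1 ≤ r S₀ S₁ a) ∧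
    (∀ S₀ S₁ S₀' S₁', S₀ ⊆ S₀' → S₁ ⊆ S₁' → ∀ a ∈ S₁ \ S₀', r S₀ S₁ a ≤ r S₀' S₁' a)

/-- Task STAR (from `LoadStmt`).  Put `f (a,b) = r (col T₀ b) (col T₁ b) a` and
`g (a,x) = r (col (ρ T₀) x) (col (ρ T₁) x) a`.  By `sum_col`, `card_col`, `col_lam` and (1):
`∑_{T₁ \ T₀} f = |λ T₁ \ λ T₀|`, `∑_{ρ T₁ \ ρ T₀} g = |λ ρ T₁ \ λ ρ T₀|`.  The second hypothesis for
`S = S' ×ˢ {b}` gives the Hall condition of (2), so `f ≥ 1` on `T₁ \ T₀`.  If `(a,b) ∈ T₁`, `R b x`,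
`(a,x) ∉ ρ T₀` then `f (a,b) ≤ g (a,x)` by (3); so `g ≥ 1` on `ρ T₁ \ ρ T₀`.  Hall's theorem
(`Finset.all_card_le_biUnion_card_iff_exists_injective`, index type `↥(T₁ \ T₀)`, sets
`rho R {p} \ rho R T₀`) and the first hypothesis give an injection `Φ : T₁ \ T₀ → ρ T₁ \ ρ T₀` with
`f ≤ g ∘ Φ`.  So `∑ (f - 1) ≤ ∑ (g - 1)`. -/
def StarStmt : Prop :=
  ∀ (V : Type u) [Fintype V] (R : V → V → Prop) (T₀ T₁ : Finset (V × V)), T₀ ⊆ T₁ →
    (∀ S ⊆ T₁ \ T₀, S.card ≤ (rho R S \ rho R T₀).card) →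
    (∀ S ⊆ T₁ \ T₀, S.card ≤ (lam R T₁ \ lam R (T₁ \ S)).card) →
    (lam R T₁ \ lam R T₀).card + (rho R T₁ \ rho R T₀).card ≤
      (T₁ \ T₀).card + (lam R (rho R T₁) \ lam R (rho R T₀)).card

/-- Task ABS (from `StarStmt`).  `Lo = {(a,b) | R a b}`, `Hi = {(a,b) | ¬ R (σ b) a}`; choose
`Lo ⊆ T₀ ⊆ T₁ ⊆ Hi` minimising `v(T₀,T₁) = |ρ T₀| - |T₀| + |T₁| - |λ T₁| : ℤ`.  Comparing with
`(T₀ ∪ S, T₁)` and `(T₀, T₁ \ S)` gives the hypotheses of `StarStmt`.  `X = λ T₀`, `Y = ρ T₁`; the pair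
`(ρ X, λ Y)` is admissible (`ρ λ T₀ ⊆ λ ρ T₀ ⊆ λ ρ T₁`; `(a,a) ∈ X`; `λ ρ T₁ ⊆ Hi` by the
homomorphism property).  `Star` and `|ρ X| ≤ |λ ρ T₀|` give `|ρ X| - |X| + |Y| - |λ Y| ≤ v(T₀,T₁)`.
`SV` (non strict form; equality for closed sets) on the rows of `X` gives
`|ρ ρ X| + |X| ≤ 2|ρ X|`, strictly unless all rows are closed; on the complements of the columns of
`Y` (`(intr S)ᶜ = nb Sᶜ`) it gives `2|λ Y| ≤ |λ λ Y| + |Y|`.  Minimality forces all rows of `X` to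
be closed; take `P = row X a` (`X ⊆ T₀ ⊆ Hi`). -/
def AbsStmt : Prop :=
  ∀ (V : Type u) [Fintype V] (R : V → V → Prop) (σ : V → V), (∀ a, R a a) → SV R →
    (∀ a b, R a b → R (σ a) (σ b)) → (∀ a b, R a b → ¬ R (σ b) a) →
    ∀ a, ∃ P : Finset V, a ∈ P ∧ nb R P ⊆ P ∧ ∀ b ∈ P, ¬ R (σ b) a

/-- Task PRUNE.  Fix `Z ⊆ Q`, `B = nb A Q \ Z`, and for `U ⊆ B` put
`f U = |(U ∪ nb A U) \ Z| - 2|U| : ℤ`.  Step: if `U ⊊ B` there is `t ⊆ B \ U`, `t ≠ ∅`, with
`f (U ∪ t) < f U`.  [`A' u v := A u v ∧ (u ∈ Q → v ∈ U ∪ Z)` misses an arc, so has a Seymour vertex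
`y`.  Put `t = N1 A y \ N1 A' y`.  If `t = ∅` then `N1 A' y = N1 A y`, `N2 A' y ⊆ N2 A y`, so `y` is
Seymour for `A`.  So `t ≠ ∅`, `y ∈ Q`, `t ⊆ B \ U`, `N1 A' y ⊆ U ∪ Z`,
`N2 A' y ⊆ U ∪ Z ∪ nb A U`.  With `E = nb A t \ (U ∪ nb A U ∪ Z ∪ t)`: `E` and `N2 A' y \ t` are
disjoint subsets of `N2 A y`, and `N2 A' y ∩ t ⊆ t ∩ nb A U`; so
`|E| < |t| + |t ∩ nb A U|`, and the new elements `(t \ nb A U) ∪ E` number `< 2|t|`.]
Induct (on `|B \ U|`) from `U = ∅` (`f = 0`) to `U = B`: `|(B ∪ nb A B) \ Z| < 2|B|`. -/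
def PruneStmt : Prop :=
  ∀ (V : Type u) [Fintype V] (A : V → V → Prop), (∀ u v, A u v → ¬ A v u) →
    (∀ v, (N2 A v).card < (N1 A v).card) →
    (∀ A' : V → V → Prop, (∀ u v, A' u v → A u v) → (∃ u v, A u v ∧ ¬ A' u v) →
      ∃ v, (N1 A' v).card ≤ (N2 A' v).card) → PruneIneq A

/-- Task BLOW.  For `P ⊆ V × Bool` let `Q` be its projection, `Z = {v | both copies are in P}`,
`U = nb A Q`, `W = nb A U`.  Then `nb P = P ∪ U × Bool`, `nb (nb P) = P ∪ (U ∪ W) × Bool`.  For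
`i : Bool`-free counting use the two "layers" `Q` and `Z`: for every `S ⊆ V`,
`|(S × Bool) \ P| = |S \ Q| + |S \ Z|`.  So `|nb P \ P| = |U \ Q| + |U \ Z|` and
`|nb nb P \ nb P| = |(W \ U) \ Q| + |(W \ U) \ Z|`.  For `Z' ∈ {Q, Z}`:
`(W \ U) \ Z' ⊆ nb A (U \ Z') \ (Z' ∪ U)`, so `PruneIneq` gives `|(W \ U) \ Z'| ≤ |U \ Z'|`
(trivially when `U \ Z' = ∅`), strictly for `Z' = Z` because `¬ nb P ⊆ P` gives `U \ Z ≠ ∅`. -/
def BlowStmt : Prop :=
  ∀ (V : Type u) [Fintype V] (A : V → V → Prop), PruneIneq A → SV (blow A)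

end Crest.Agent.R57
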