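import Crest.Agent.R57.Defs

/-! Row 57, task LOAD: properties of balanced loads. -/

set_option autoImplicit false
open scoped Classical
open Finset

namespace Crest.Agent.R57

universe u

namespace Load

variable {V : Type u} [Fintype V] {R : V → V → Prop}

lemma supp' {S₀ S₁ : Finset V} {π : V → V → ℝ} (h : Bal R S₀ S₁ π) {y a : V} (hy : π y a ≠ 0) :
    a ∈ S₁ \ S₀ ∧ y ∈ intr R S₁ \ intr R S₀ := by
  obtain ⟨h1, h2, h3⟩ := h.supp y a hy
  refine ⟨mem_sdiff.2 ⟨mem_intr.1 h1 a h3, h2⟩, mem_sdiff.2 ⟨h1, fun h0 => h2 (mem_intr.1 h0 a h3)⟩⟩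

lemma sum_of_supp {π : V → V → ℝ} {y : V} {S : Finset V} (h : ∀ a, π y a ≠ 0 → a ∈ S) :
    ∑ a ∈ S, π y a = ∑ a, π y a := by
  refine sum_subset (subset_univ _) fun a _ ha => ?_
  by_contra h0
  exact ha (h a h0)

lemma sum_load (π : V → V → ℝ) (S : Finset V) :
    ∑ a ∈ S, load π a = ∑ y, ∑ a ∈ S, π y a := by
  unfold load
  exact sum_comm

lemma total {S₀ S₁ : Finset V} {π : V → V → ℝ} (h : Bal R S₀ S₁ π) :
    ∑ a ∈ S₁ \ S₀, load π a = ((intr R S₁ \ intr R S₀).card : ℝ) := by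
  rw [sum_load, card_eq_sum_ones, Nat.cast_sum]
  symm
  refine sum_subset_zero_on_sdiff (subset_univ _) (fun y hy => ?_) fun y hy => ?_
  · refine sum_eq_zero fun a _ => ?_
    by_contra h0
    exact (mem_sdiff.1 hy).2 (supp' h h0).2
  · rw [sum_of_supp fun a ha => (supp' h ha).1, h.tot y (mem_sdiff.1 hy).1 (mem_sdiff.1 hy).2,
      Nat.cast_one]

lemma hall {S₀ S₁ : Finset V} {π : V → V → ℝ} (h : Bal R S₀ S₁ π)
    (hS : ∀ S ⊆ S₁ \ S₀, S.card ≤ (nb R S ∩ intr R S₁).card) :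
    ∀ a ∈ S₁ \ S₀, 1 ≤ load π a := by
  by_contra hc
  push Not at hc
  obtain ⟨a₀, ha₀, hl⟩ := hc
  set S := (S₁ \ S₀).filter fun a => load π a < 1 with hSdef
  have hne : S.Nonempty := ⟨a₀, mem_filter.2 ⟨ha₀, hl⟩⟩
  have h1 : ∑ a ∈ S, load π a < ∑ _a ∈ S, (1 : ℝ) :=
    sum_lt_sum_of_nonempty hne fun a ha => (mem_filter.1 ha).2
  have h2 : ∑ _y ∈ nb R S ∩ intr R S₁, (1 : ℝ) ≤ ∑ a ∈ S, load π a := by
    rw [sum_load]
    refine le_trans (le_of_eq (sum_congr rfl fun y hy => ?_))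
      (sum_le_sum_of_subset_of_nonneg (subset_univ (nb R S ∩ intr R S₁))
        fun y _ _ => sum_nonneg fun a _ => h.nonneg y a)
    obtain ⟨hy1, hy2⟩ := mem_inter.1 hy
    obtain ⟨b, hb, hby⟩ := mem_nb.1 hy1
    have hb0 : b ∉ S₀ := (mem_sdiff.1 (mem_filter.1 hb).1).2
    rw [sum_of_supp, h.tot y hy2 fun h0 => hb0 (mem_intr.1 h0 b hby)]
    intro a ha
    exact mem_filter.2 ⟨(supp' h ha).1, (h.bal y a b ha hb0 hby).trans_lt (mem_filter.1 hb).2⟩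
  have h3 : (S.card : ℝ) ≤ (nb R S ∩ intr R S₁).card := by
    exact_mod_cast hS S (filter_subset _ _)
  simp only [sum_const, nsmul_eq_mul, mul_one] at h1 h2
  linarith

lemma mono {S₀ S₁ S₀' S₁' : Finset V} {π π' : V → V → ℝ} (h : Bal R S₀ S₁ π)
    (h' : Bal R S₀' S₁' π') (h0 : S₀ ⊆ S₀') (h1 : S₁ ⊆ S₁') :
    ∀ a ∈ S₁ \ S₀', load π a ≤ load π' a := by
  by_contra hc
  push Not at hc
  obtain ⟨a₀, ha₀, hl⟩ := hc
  set H := (S₁ \ S₀').filter fun a => load π' a < load π a with hH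
  have hne : H.Nonempty := ⟨a₀, mem_filter.2 ⟨ha₀, hl⟩⟩
  have e1 : ∑ a ∈ H, load π' a < ∑ a ∈ H, load π a :=
    sum_lt_sum_of_nonempty hne fun a ha => (mem_filter.1 ha).2
  have e2 : ∑ a ∈ H, load π a ≤ ∑ a ∈ H, load π' a := by
    rw [sum_load, sum_load]
    refine sum_le_sum fun y _ => ?_
    by_cases hy : ∀ a ∈ H, π y a = 0
    · rw [sum_eq_zero hy]
      exact sum_nonneg fun a _ => h'.nonneg y a
    · push Not at hy
      obtain ⟨a, ha, hya⟩ := hy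
      obtain ⟨hy1, -, hR⟩ := h.supp y a hya
      have ha0 : a ∉ S₀' := (mem_sdiff.1 (mem_filter.1 ha).1).2
      have hy1' : y ∈ intr R S₁' := mem_intr.2 fun b hb => h1 (mem_intr.1 hy1 b hb)
      have hy0' : y ∉ intr R S₀' := fun hh => ha0 (mem_intr.1 hh a hR)
      have e : ∑ b ∈ H, π' y b = 1 := by
        rw [sum_of_supp, h'.tot y hy1' hy0']
        intro b hb
        obtain ⟨-, hb0, hbR⟩ := h'.supp y b hb
        refine mem_filter.2 ⟨mem_sdiff.2 ⟨mem_intr.1 hy1 b hbR, hb0⟩, ?_⟩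
        exact ((h'.bal y b a hb ha0 hR).trans_lt (mem_filter.1 ha).2).trans_le
          (h.bal y a b hya (fun hh => hb0 (h0 hh)) hbR)
      rw [e, ← h.tot y hy1 (mem_sdiff.1 (supp' h hya).2).2]
      exact sum_le_sum_of_subset_of_nonneg (subset_univ _) fun b _ _ => h.nonneg y b
  linarith

end Load

theorem load_proof (h : BalEx.{u}) : LoadStmt.{u} := by
  intro V _ R
  choose π hπ using h V R
  exact ⟨fun S₀ S₁ => load (π S₀ S₁), fun S₀ S₁ => Load.total (hπ S₀ S₁),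
    fun S₀ S₁ => Load.hall (hπ S₀ S₁),
    fun S₀ S₁ S₀' S₁' h0 h1 => Load.mono (hπ S₀ S₁) (hπ S₀' S₁') h0 h1⟩

end Crest.Agent.R57
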