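import Crest.Agent.R57.Defs

set_option autoImplicit false
open scoped Classical
open Finset

namespace Crest.Agent.R57

universe u

theorem main_aux (hA : AbsStmt.{u}) (hP : PruneStmt.{u}) (hB : BlowStmt.{u})
    (V : Type u) [Fintype V] [Nonempty V] :
    ∀ (k : ℕ) (A : V → V → Prop), (∀ u v, A u v → ¬ A v u) →
      (univ.filter (fun p : V × V => A p.1 p.2)).card = k →
      ∃ v, (N1 A v).card ≤ (N2 A v).card := by
  intro k
  induction k using Nat.strong_induction_on with
  | _ k ih =>
    intro A hasym hk
    by_contra hno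
    push Not at hno
    have hmin : ∀ A' : V → V → Prop, (∀ u v, A' u v → A u v) → (∃ u v, A u v ∧ ¬ A' u v) →
        ∃ v, (N1 A' v).card ≤ (N2 A' v).card := by
      rintro A' hle ⟨x, y, hxy, hn⟩
      refine ih _ ?_ A' (fun u v h h' => hasym u v (hle _ _ h) (hle _ _ h')) rfl
      rw [← hk]
      refine card_lt_card ⟨fun p hp => ?_, fun hsub => ?_⟩
      · simp only [mem_filter, mem_univ, true_and] at hp ⊢
        exact hle _ _ hp
      · have := @hsub (x, y) (by simpa using hxy)
        simp only [mem_filter, mem_univ, true_and] at this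
        exact hn this
    have hSV := hB V A (hP V A hasym hno hmin)
    have habs := hA (V × Bool) (blow A) (fun p => (p.1, !p.2)) (fun _ => Or.inl rfl) hSV
      (by
        rintro a b (h | h)
        · exact Or.inl (by rw [h])
        · exact Or.inr h)
      (by
        rintro a b (h | h) (h' | h')
        · subst h
          have := congrArg Prod.snd h'
          simp at this
        · subst h
          exact hasym _ _ h' h'
        · have e : b.1 = a.1 := by simpa using congrArg Prod.fst h'
          rw [e] at h
          exact hasym _ _ h h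
        · exact hasym _ _ h h')
    have hacyc : ∀ a, ¬ Relation.TransGen A a a := by
      intro a ha
      obtain ⟨P, haP, hcl, hav⟩ := habs (a, false)
      have hreach : ∀ b, Relation.ReflTransGen A a b → (b, false) ∈ P := by
        intro b hb
        induction hb with
        | refl => exact haP
        | tail _ h ih' => exact hcl (mem_nb.2 ⟨_, ih', Or.inr h⟩)
      obtain ⟨b, hb, hba⟩ := Relation.TransGen.tail'_iff.1 ha
      exact hav _ (hreach b hb) (Or.inr hba)
    let r : V → V → Prop := fun b a => Relation.TransGen A a b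
    have : IsTrans V r := ⟨fun _ _ _ h1 h2 => Relation.TransGen.trans h2 h1⟩
    have : Std.Irrefl r := ⟨hacyc⟩
    have hwf : WellFounded r := Finite.wellFounded_of_trans_of_irrefl r
    obtain ⟨a, -, hmina⟩ := hwf.has_min Set.univ Set.univ_nonempty
    have hpos : 0 < (N1 A a).card := lt_of_le_of_lt (Nat.zero_le _) (hno a)
    obtain ⟨c, hc⟩ := card_pos.1 hpos
    exact hmina c trivial (Relation.TransGen.single (mem_N1.1 hc))

theorem main_ncard (hA : AbsStmt.{u}) (hP : PruneStmt.{u}) (hB : BlowStmt.{u})
    (V : Type u) [Fintype V] [Nonempty V] (A : V → V → Prop) (hasym : ∀ u v, A u v → ¬ A v u) :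
    ∃ v : V, Set.ncard {u | A v u} ≤ Set.ncard {w | w ≠ v ∧ ¬ A v w ∧ ∃ u, A v u ∧ A u w} := by
  obtain ⟨v, hv⟩ := main_aux hA hP hB V _ A hasym rfl
  refine ⟨v, ?_⟩
  have e1 : {u | A v u} = (N1 A v : Set V) := by ext u; simp
  have e2 : {w | w ≠ v ∧ ¬ A v w ∧ ∃ u, A v u ∧ A u w} = (N2 A v : Set V) := by ext u; simp
  rw [e1, e2, Set.ncard_coe_finset, Set.ncard_coe_finset]
  exact hv

end Crest.Agent.R57
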