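import Crest.Agent.R57.Defs

set_option autoImplicit false
open scoped Classical
open Finset

namespace Crest.Agent.R57

universe u

theorem prune_step {V : Type u} [Fintype V] (A : V → V → Prop) (hA : ∀ u v, A u v → ¬ A v u)
    (hN : ∀ v, (N2 A v).card < (N1 A v).card)
    (hm : ∀ A' : V → V → Prop, (∀ u v, A' u v → A u v) → (∃ u v, A u v ∧ ¬ A' u v) →
      ∃ v, (N1 A' v).card ≤ (N2 A' v).card)
    (Z Q : Finset V) (hZ : Z ⊆ Q) (U : Finset V) (hU : (( nb A Q \ Z) \ U).Nonempty) :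
    ∃ t : Finset V, t.Nonempty ∧ t ⊆ (nb A Q \ Z) \ U ∧
      (((U ∪ t) ∪ nb A (U ∪ t)) \ Z).card < ((U ∪ nb A U) \ Z).card + 2 * t.card := by
  obtain ⟨y, hy⟩ := hm (fun u v => A u v ∧ (u ∈ Q → v ∈ U ∪ Z)) (fun _ _ h => h.1) (by
    obtain ⟨b, hb⟩ := hU
    simp only [mem_sdiff, mem_nb] at hb
    obtain ⟨⟨⟨q, hq, hqb⟩, hbZ⟩, hbU⟩ := hb
    exact ⟨q, b, hqb, fun h => by have := h.2 hq; simp [hbZ, hbU] at this⟩)
  set A' : V → V → Prop := fun u v => A u v ∧ (u ∈ Q → v ∈ U ∪ Z) with hA'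
  set t := N1 A y \ N1 A' y with ht
  have hmt : ∀ v, v ∈ t ↔ A y v ∧ y ∈ Q ∧ v ∉ U ∧ v ∉ Z := by
    intro v
    simp only [ht, hA', mem_sdiff, mem_N1, mem_union]
    tauto
  have h1 : t.card + (N1 A' y).card = (N1 A y).card :=
    card_sdiff_add_card_eq_card fun v hv => mem_N1.2 (mem_N1.1 hv).1
  have h2 : N2 A' y \ t ⊆ N2 A y := by
    intro w hw
    obtain ⟨a1, a2⟩ := mem_sdiff.1 hw
    obtain ⟨b1, b2, v, b3, b4⟩ := mem_N2.1 a1
    exact mem_N2.2 ⟨b1, fun h => a2 (mem_sdiff.2 ⟨mem_N1.2 h, fun h' => b2 (mem_N1.1 h')⟩),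
      v, b3.1, b4.1⟩
  have h3 := card_sdiff_add_card_inter (N2 A' y) t
  have h4 := hN y
  have hne : t.Nonempty := by
    by_contra hc
    rw [not_nonempty_iff_eq_empty] at hc
    have := card_le_card h2
    rw [hc] at h1 h3 this
    simp at h1 h3 this
    omega
  have hyQ : y ∈ Q := by
    obtain ⟨v, hv⟩ := hne
    exact ((hmt v).1 hv).2.1
  have h5 : ∀ w ∈ N2 A' y, w ∈ U ∨ w ∈ Z ∨ w ∈ nb A U := by
    intro w hw
    obtain ⟨-, -, v, b3, b4⟩ := mem_N2.1 hw
    rcases mem_union.1 (b3.2 hyQ) with h | h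
    · exact Or.inr (Or.inr (mem_nb.2 ⟨v, h, b4.1⟩))
    · rcases mem_union.1 (b4.2 (hZ h)) with h | h
      · exact Or.inl h
      · exact Or.inr (Or.inl h)
  set E := nb A t \ (U ∪ nb A U ∪ Z ∪ t) with hE
  have h6 : E ⊆ N2 A y := by
    intro w hw
    obtain ⟨a1, a2⟩ := mem_sdiff.1 hw
    obtain ⟨v, hv, hvw⟩ := mem_nb.1 a1
    have hyv := ((hmt v).1 hv).1
    simp only [mem_union, not_or] at a2
    refine mem_N2.2 ⟨?_, fun h => a2.2 ((hmt w).2 ⟨h, hyQ, a2.1.1.1, a2.1.2⟩), v, hyv, hvw⟩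
    rintro rfl
    exact hA _ _ hyv hvw
  have h7 : Disjoint E (N2 A' y \ t) := by
    rw [disjoint_left]
    intro w hw hw'
    have a2 := (mem_sdiff.1 hw).2
    simp only [mem_union, not_or] at a2
    rcases h5 w (mem_sdiff.1 hw').1 with h | h | h
    · exact a2.1.1.1 h
    · exact a2.1.2 h
    · exact a2.1.1.2 h
  have h8 := card_le_card (union_subset h6 h2)
  rw [card_union_of_disjoint h7] at h8
  have h9 : (N2 A' y ∩ t).card ≤ (t ∩ nb A U).card := by
    refine card_le_card fun w hw => ?_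
    obtain ⟨a1, a2⟩ := mem_inter.1 hw
    obtain ⟨-, -, b1, b2⟩ := (hmt w).1 a2
    rcases h5 w a1 with h | h | h
    · exact absurd h b1
    · exact absurd h b2
    · exact mem_inter.2 ⟨a2, h⟩
  have h10 := card_sdiff_add_card_inter t (nb A U)
  have h11 : ((U ∪ t) ∪ nb A (U ∪ t)) \ Z ⊆ (((U ∪ nb A U) \ Z) ∪ (t \ nb A U)) ∪ E := by
    intro w hw
    obtain ⟨a1, a2⟩ := mem_sdiff.1 hw
    have a3 : w ∈ nb A (U ∪ t) → w ∈ nb A U ∨ w ∈ nb A t := fun h => by
      obtain ⟨v, hv, hvw⟩ := mem_nb.1 h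
      rcases mem_union.1 hv with h | h
      · exact Or.inl (mem_nb.2 ⟨v, h, hvw⟩)
      · exact Or.inr (mem_nb.2 ⟨v, h, hvw⟩)
    by_cases c1 : w ∈ U ∪ nb A U
    · exact mem_union_left _ (mem_union_left _ (mem_sdiff.2 ⟨c1, a2⟩))
    by_cases c2 : w ∈ t
    · exact mem_union_left _ (mem_union_right _
        (mem_sdiff.2 ⟨c2, fun h => c1 (mem_union_right _ h)⟩))
    refine mem_union_right _ (mem_sdiff.2 ⟨?_, fun h => ?_⟩)
    · rcases mem_union.1 a1 with h | h
      · rcases mem_union.1 h with h | h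
        · exact absurd (mem_union_left _ h) c1
        · exact absurd h c2
      · exact (a3 h).resolve_left fun h => c1 (mem_union_right _ h)
    · rcases mem_union.1 h with h | h
      · rcases mem_union.1 h with h | h
        · exact c1 h
        · exact a2 h
      · exact c2 h
  have h12 := (card_le_card h11).trans (card_union_le _ _)
  have h13 := card_union_le ((U ∪ nb A U) \ Z) (t \ nb A U)
  refine ⟨t, hne, fun v hv => ?_, by omega⟩
  obtain ⟨a1, a2, a3, a4⟩ := (hmt v).1 hv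
  exact mem_sdiff.2 ⟨mem_sdiff.2 ⟨mem_nb.2 ⟨y, a2, a1⟩, a4⟩, a3⟩

theorem prune : PruneStmt.{u} := by
  intro V _ A hA hN hm Z Q hZ hB
  set B := nb A Q \ Z with hBdef
  have key : ∀ k, ∀ U ⊆ B, (B \ U).card ≤ k → ((U ∪ nb A U) \ Z).card < 2 * U.card →
      ((B ∪ nb A B) \ Z).card < 2 * B.card := by
    intro k
    induction k with
    | zero =>
      intro U hU hk h
      have : B ⊆ U := sdiff_eq_empty_iff_subset.1 (card_eq_zero.1 (by omega))
      rwa [subset_antisymm this hU]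
    | succ k ih =>
      intro U hU hk h
      rcases (B \ U).eq_empty_or_nonempty with he | he
      · rwa [subset_antisymm (sdiff_eq_empty_iff_subset.1 he) hU]
      · obtain ⟨t, t1, t2, t3⟩ := prune_step A hA hN hm Z Q hZ U he
        have hd : Disjoint U t := disjoint_left.2 fun v hv hv' => (mem_sdiff.1 (t2 hv')).2 hv
        refine ih (U ∪ t) (union_subset hU (t2.trans sdiff_subset)) ?_ ?_
        · have : B \ (U ∪ t) ⊂ B \ U := by
            obtain ⟨v, hv⟩ := t1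
            refine ⟨sdiff_subset_sdiff subset_rfl subset_union_left, fun hc => ?_⟩
            exact (mem_sdiff.1 (hc (t2 hv))).2 (mem_union_right _ hv)
          have := card_lt_card this
          omega
        · rw [card_union_of_disjoint hd]; omega
  obtain ⟨t, -, t2, t3⟩ := prune_step A hA hN hm Z Q hZ ∅ (by simpa using hB)
  have e : nb A ∅ = ∅ := by ext; simp
  rw [e] at t3
  simp only [empty_union, empty_sdiff, card_empty, zero_add] at t3
  have h := key _ t (t2.trans sdiff_subset) le_rfl t3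
  have hd : Disjoint B (nb A B \ (Z ∪ nb A Q)) :=
    disjoint_left.2 fun v hv hv' => (mem_sdiff.1 hv').2 (mem_union_right _ (mem_sdiff.1 hv).1)
  have hs : B ∪ (nb A B \ (Z ∪ nb A Q)) ⊆ (B ∪ nb A B) \ Z := by
    intro v hv
    rcases mem_union.1 hv with h | h
    · exact mem_sdiff.2 ⟨mem_union_left _ h, (mem_sdiff.1 h).2⟩
    · exact mem_sdiff.2 ⟨mem_union_right _ (mem_sdiff.1 h).1,
        fun h' => (mem_sdiff.1 h).2 (mem_union_left _ h')⟩
  have := card_le_card hs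
  rw [card_union_of_disjoint hd] at this
  omega

end Crest.Agent.R57
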