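import Crest.Agent.R57.Defs

/-! Row 57, task STAR. -/

set_option autoImplicit false
open scoped Classical
open Finset

namespace Crest.Agent.R57

universe u

theorem col_sdiff {V : Type u} [Fintype V] (T₁ T₀ : Finset (V × V)) (b : V) :
    col (T₁ \ T₀) b = col T₁ b \ col T₀ b := by
  ext a; simp

theorem star (h : LoadStmt.{u}) : StarStmt.{u} := by
  intro V _ R T₀ T₁ _ H1 H2
  obtain ⟨r, r1, r2, r3⟩ := h V R
  have hsum : ∀ T₀ T₁ : Finset (V × V), ∑ p ∈ T₁ \ T₀, r (col T₀ p.2) (col T₁ p.2) p.1 =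
      ((lam R T₁ \ lam R T₀).card : ℝ) := by
    intro T₀ T₁
    rw [sum_col, card_col, Nat.cast_sum]
    refine sum_congr rfl fun b _ => ?_
    rw [col_sdiff, col_sdiff, col_lam, col_lam]
    exact r1 _ _
  set f : V × V → ℝ := fun p => r (col T₀ p.2) (col T₁ p.2) p.1 with hf
  set g : V × V → ℝ := fun p => r (col (rho R T₀) p.2) (col (rho R T₁) p.2) p.1 with hg
  have hf1 : ∀ p ∈ T₁ \ T₀, 1 ≤ f p := by
    rintro ⟨a, b⟩ hp
    refine r2 (col T₀ b) (col T₁ b) (fun S hS => ?_) a (by simpa using hp)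
    have h1 := H2 (S ×ˢ {b}) (by
      rintro ⟨a', b'⟩ hq
      rw [mem_product, mem_singleton] at hq
      obtain ⟨q1, q2⟩ := hq
      simp only at q1 q2
      subst q2
      simpa using hS q1)
    rw [card_product, card_singleton, mul_one] at h1
    refine h1.trans ?_
    have h2 : lam R T₁ \ lam R (T₁ \ S ×ˢ {b}) ⊆ (nb R S ∩ intr R (col T₁ b)) ×ˢ {b} := by
      rintro ⟨y, b'⟩ hq
      rw [mem_sdiff, mem_lam, mem_lam] at hq
      obtain ⟨q1, q2⟩ := hq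
      push Not at q2
      obtain ⟨a', q3, q4⟩ := q2
      have q5 : (a', b') ∈ S ×ˢ {b} := by
        by_contra hc
        exact q4 (mem_sdiff.2 ⟨q1 a' q3, hc⟩)
      rw [mem_product, mem_singleton] at q5
      obtain ⟨q6, q7⟩ := q5
      simp only at q6 q7
      subst q7
      rw [mem_product, mem_singleton, mem_inter, mem_nb, mem_intr]
      exact ⟨⟨⟨a', q6, q3⟩, fun a ha => mem_col.2 (q1 a ha)⟩, rfl⟩
    have h3 := card_le_card h2
    rwa [card_product, card_singleton, mul_one] at h3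
  have hfg : ∀ a b x, (a, b) ∈ T₁ → R b x → (a, x) ∉ rho R T₀ → f (a, b) ≤ g (a, x) := by
    intro a b x h1 h2 h3
    refine r3 _ _ _ _ (fun a' ha' => ?_) (fun a' ha' => ?_) a ?_
    · exact mem_col.2 (mem_rho.2 ⟨b, h2, mem_col.1 ha'⟩)
    · exact mem_col.2 (mem_rho.2 ⟨b, h2, mem_col.1 ha'⟩)
    · exact mem_sdiff.2 ⟨mem_col.2 h1, fun hc => h3 (mem_col.1 hc)⟩
  have hg1 : ∀ q ∈ rho R T₁ \ rho R T₀, 1 ≤ g q := by
    rintro ⟨a, x⟩ hq
    rw [mem_sdiff] at hq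
    obtain ⟨b, h1, h2⟩ := mem_rho.1 hq.1
    exact (hf1 (a, b) (mem_sdiff.2 ⟨h2, fun hc => hq.2 (mem_rho.2 ⟨b, h1, hc⟩)⟩)).trans
      (hfg a b x h2 h1 hq.2)
  obtain ⟨Φ, hinj, hΦ⟩ := (all_card_le_biUnion_card_iff_exists_injective
    (fun p : ↥(T₁ \ T₀) => rho R {p.1} \ rho R T₀)).1 (by
      intro s
      have h1 := H1 (s.map (Function.Embedding.subtype _)) (by
        intro p hp
        obtain ⟨q, -, rfl⟩ := mem_map.1 hp
        exact q.2)
      rw [card_map] at h1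
      refine h1.trans (card_le_card fun q hq => ?_)
      rw [mem_sdiff] at hq
      obtain ⟨b, h2, h3⟩ := mem_rho.1 hq.1
      obtain ⟨p, hp, e⟩ := mem_map.1 h3
      exact mem_biUnion.2 ⟨p, hp, mem_sdiff.2 ⟨mem_rho.2 ⟨b, h2, mem_singleton.2 e.symm⟩, hq.2⟩⟩)
  have hΦ' : ∀ p : ↥(T₁ \ T₀), Φ p ∈ rho R T₁ \ rho R T₀ ∧ f p.1 ≤ g (Φ p) := by
    intro p
    have h1 := mem_sdiff.1 (hΦ p)
    obtain ⟨b, h2, h3⟩ := mem_rho.1 h1.1
    rw [mem_singleton] at h3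
    have h4 : ((Φ p).1, b) ∈ T₁ := by rw [h3]; exact (mem_sdiff.1 p.2).1
    refine ⟨mem_sdiff.2 ⟨mem_rho.2 ⟨b, h2, h4⟩, h1.2⟩, ?_⟩
    rw [← h3]
    exact hfg _ b _ h4 h2 h1.2
  have key : ∑ p ∈ T₁ \ T₀, (f p - 1) ≤ ∑ q ∈ rho R T₁ \ rho R T₀, (g q - 1) := by
    calc ∑ p ∈ T₁ \ T₀, (f p - 1) = ∑ p : ↥(T₁ \ T₀), (f p.1 - 1) := (sum_coe_sort _ _).symm
      _ ≤ ∑ p : ↥(T₁ \ T₀), (g (Φ p) - 1) := sum_le_sum fun p _ => by linarith [(hΦ' p).2]
      _ = ∑ q ∈ univ.image Φ, (g q - 1) := (sum_image (f := fun q => g q - 1)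
          (fun a _ b _ e => hinj e)).symm
      _ ≤ _ := by
          refine sum_le_sum_of_subset_of_nonneg (fun q hq => ?_) (fun q hq _ => ?_)
          · obtain ⟨p, -, rfl⟩ := mem_image.1 hq
            exact (hΦ' p).1
          · linarith [hg1 q hq]
  rw [sum_sub_distrib, sum_sub_distrib, hsum, hsum] at key
  simp only [sum_const, nsmul_eq_mul, mul_one] at key
  have : ((lam R T₁ \ lam R T₀).card : ℝ) + (rho R T₁ \ rho R T₀).card ≤
      (T₁ \ T₀).card + (lam R (rho R T₁) \ lam R (rho R T₀)).card := by linarith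
  exact_mod_cast this

end Crest.Agent.R57
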